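import Mathlib

set_option linter.all false

/-! Block G2: polynomial square roots and dimension-free slowness. -/

noncomputable section

namespace Vale.Agent.P184.H460

open Set

/-- polynomials close to the square root on `[0, 2]`, vanishing at `0` -/
theorem exists_poly_sqrt {η : ℝ} (hη : 0 < η) :
    ∃ P : Polynomial ℝ, P.eval 0 = 0 ∧ ∀ t, 0 ≤ t → t ≤ 2 → |P.eval t - √t| ≤ η := by
  obtain ⟨p, hp⟩ := exists_polynomial_near_of_continuousOn 0 2 (fun t => √t)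
    (Real.continuous_sqrt.continuousOn) (η / 2) (by positivity)
  refine ⟨p - Polynomial.C (p.eval 0), by simp, fun t h0 h2 => ?_⟩
  have h1 := hp t ⟨h0, h2⟩
  have h3 := hp 0 ⟨le_rfl, by norm_num⟩
  rw [Real.sqrt_zero, sub_zero] at h3
  rw [Polynomial.eval_sub, Polynomial.eval_C]
  have : p.eval t - p.eval 0 - √t = (p.eval t - √t) - p.eval 0 := by ring
  rw [this]
  refine (abs_sub _ _).trans ?_
  linarith

variable {K : Type*} [Fintype K]

theorem sq_sqrt_sub_sqrt_le {a b : ℝ} (ha : 0 ≤ a) (hb : 0 ≤ b) : (√a - √b) ^ 2 ≤ |a - b| := by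
  have h1 : a - b = (√a - √b) * (√a + √b) := by
    rw [← Real.sq_sqrt ha, ← Real.sq_sqrt hb, Real.sq_sqrt ha, Real.sq_sqrt hb]
    have e1 := Real.mul_self_sqrt ha
    have e2 := Real.mul_self_sqrt hb
    nlinarith
  rw [h1, abs_mul, ← sq_abs, sq]
  refine mul_le_mul_of_nonneg_left ?_ (abs_nonneg _)
  rw [abs_of_nonneg (add_nonneg (Real.sqrt_nonneg _) (Real.sqrt_nonneg _))]
  refine (abs_sub _ _).trans ?_
  rw [abs_of_nonneg (Real.sqrt_nonneg _), abs_of_nonneg (Real.sqrt_nonneg _)]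

/-- slowness of the polynomial square root, independent of the size of `K` -/
theorem poly_slow {P : Polynomial ℝ} {η : ℝ} (h0 : P.eval 0 = 0) (hη : 0 ≤ η)
    (hP : ∀ t, 0 ≤ t → t ≤ 2 → |P.eval t - √t| ≤ η) (f g : K → ℝ)
    (hf : ∀ k, 0 ≤ f k) (hf2 : ∀ k, f k ≤ 2) (hg : ∀ k, 0 ≤ g k) (hg2 : ∀ k, g k ≤ 2)
    (Z : Finset K) (hZ : ∀ k, k ∉ Z → f k = 0 ∧ g k = 0) :
    ∑ k, (P.eval (f k) - P.eval (g k)) ^ 2 ≤ 2 * ∑ k, |f k - g k| + 8 * η ^ 2 * Z.card := by
  classical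
  have h1 : ∀ k, (P.eval (f k) - P.eval (g k)) ^ 2 ≤
      2 * |f k - g k| + if k ∈ Z then 8 * η ^ 2 else 0 := by
    intro k
    split_ifs with hk
    · have a1 := abs_le.1 (hP (f k) (hf k) (hf2 k))
      have a2 := abs_le.1 (hP (g k) (hg k) (hg2 k))
      have a3 := sq_sqrt_sub_sqrt_le (hf k) (hg k)
      set u := P.eval (f k) - √(f k)
      set v := P.eval (g k) - √(g k)
      have e : P.eval (f k) - P.eval (g k) = (√(f k) - √(g k)) + (u - v) := by ring
      rw [e]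
      have h4 : ((√(f k) - √(g k)) + (u - v)) ^ 2 ≤ 2 * (√(f k) - √(g k)) ^ 2 + 2 * (u - v) ^ 2 := by
        nlinarith [sq_nonneg ((√(f k) - √(g k)) - (u - v))]
      have h5 : (u - v) ^ 2 ≤ (2 * η) ^ 2 := by
        apply sq_le_sq'
        · linarith [a1.1, a2.2]
        · linarith [a1.2, a2.1]
      nlinarith
    · obtain ⟨e1, e2⟩ := hZ k hk
      rw [e1, e2]; simp
  refine (Finset.sum_le_sum fun k _ => h1 k).trans (le_of_eq ?_)
  rw [Finset.sum_add_distrib, ← Finset.mul_sum, Finset.sum_ite_mem, Finset.univ_inter,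
    Finset.sum_const, nsmul_eq_mul]
  ring

/-- the squares of the polynomial square root sum up to almost the mass -/
theorem poly_mass {P : Polynomial ℝ} {η : ℝ} (h0 : P.eval 0 = 0) (hη : 0 ≤ η) (hη1 : η ≤ 1)
    (hP : ∀ t, 0 ≤ t → t ≤ 2 → |P.eval t - √t| ≤ η) (f : K → ℝ)
    (hf : ∀ k, 0 ≤ f k) (hf2 : ∀ k, f k ≤ 2) (Z : Finset K) (hZ : ∀ k, k ∉ Z → f k = 0) :
    |∑ k, (P.eval (f k)) ^ 2 - ∑ k, f k| ≤ 4 * η * Z.card := by
  classical
  have h1 : ∀ k, |(P.eval (f k)) ^ 2 - f k| ≤ if k ∈ Z then 4 * η else 0 := by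
    intro k
    split_ifs with hk
    · have a1 := hP (f k) (hf k) (hf2 k)
      have e : (P.eval (f k)) ^ 2 - f k = (P.eval (f k) - √(f k)) * (P.eval (f k) + √(f k)) := by
        have := Real.mul_self_sqrt (hf k)
        nlinarith
      have a2 := abs_le.1 a1
      have a3 : √(f k) ≤ 3 / 2 := by
        rw [Real.sqrt_le_left (by norm_num)]
        linarith [hf2 k]
      have a4 := Real.sqrt_nonneg (f k)
      rw [e, abs_mul]
      have a5 : |P.eval (f k) + √(f k)| ≤ 4 := by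
        rw [abs_le]; constructor <;> linarith [a2.1, a2.2]
      calc _ ≤ η * 4 := mul_le_mul a1 a5 (abs_nonneg _) hη
        _ = _ := by ring
    · rw [hZ k hk, h0]; simp
  rw [← Finset.sum_sub_distrib]
  refine (Finset.abs_sum_le_sum_abs _ _).trans ((Finset.sum_le_sum fun k _ => h1 k).trans
    (le_of_eq ?_))
  rw [Finset.sum_ite_mem, Finset.univ_inter, Finset.sum_const, nsmul_eq_mul]
  ring

/-! ### the quadratic form -/

variable {J C : Type*} [Fintype J] [Fintype C]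

/-- the squared norm of the part orthogonal to the functions constant along `J` -/
def QQ (h : J × C → ℝ) : ℝ :=
  ∑ k, h k ^ 2 - (1 / (Fintype.card J : ℝ)) * ∑ c, (∑ j, h (j, c)) ^ 2

theorem QQ_le (h : J × C → ℝ) : QQ h ≤ ∑ k, h k ^ 2 := by
  unfold QQ
  have : 0 ≤ (1 / (Fintype.card J : ℝ)) * ∑ c, (∑ j, h (j, c)) ^ 2 := by positivity
  linarith

theorem QQ_ge (h : J × C → ℝ) (hfib : ∀ c, ∃ Z : Finset J, (∀ j, j ∉ Z → h (j, c) = 0) ∧
    2 * Z.card ≤ Fintype.card J) : (∑ k, h k ^ 2) / 2 ≤ QQ h := by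
  classical
  unfold QQ
  have h1 : ∀ c, (1 / (Fintype.card J : ℝ)) * (∑ j, h (j, c)) ^ 2 ≤ (∑ j, h (j, c) ^ 2) / 2 := by
    intro c
    obtain ⟨Z, hZ, hc⟩ := hfib c
    have e1 : ∑ j, h (j, c) = ∑ j ∈ Z, h (j, c) :=
      (Finset.sum_subset (Finset.subset_univ Z) fun j _ hj => hZ j hj).symm
    have e2 : ∑ j, h (j, c) ^ 2 = ∑ j ∈ Z, h (j, c) ^ 2 :=
      (Finset.sum_subset (Finset.subset_univ Z) fun j _ hj => by rw [hZ j hj]; simp).symm
    have e3 : (∑ j ∈ Z, h (j, c)) ^ 2 ≤ Z.card * ∑ j ∈ Z, h (j, c) ^ 2 :=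
      sq_sum_le_card_mul_sum_sq
    rw [e1, e2]
    rcases Nat.eq_zero_or_pos (Fintype.card J) with hJ | hJ
    · have : Z.card = 0 := by omega
      rw [Finset.card_eq_zero] at this
      subst this
      simp
    · have hJ' : (0 : ℝ) < Fintype.card J := by exact_mod_cast hJ
      have hc' : 2 * (Z.card : ℝ) ≤ Fintype.card J := by exact_mod_cast hc
      have hs : 0 ≤ ∑ j ∈ Z, h (j, c) ^ 2 := Finset.sum_nonneg fun j _ => sq_nonneg _
      rw [one_div, inv_mul_le_iff₀ hJ']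
      nlinarith
  have h2 : (1 / (Fintype.card J : ℝ)) * ∑ c, (∑ j, h (j, c)) ^ 2 ≤ (∑ k, h k ^ 2) / 2 := by
    rw [Finset.mul_sum]
    refine (Finset.sum_le_sum fun c _ => h1 c).trans (le_of_eq ?_)
    rw [← Finset.sum_div, Fintype.sum_prod_type_right]
  linarith

theorem QQ_nonneg (h : J × C → ℝ) : 0 ≤ QQ h := by
  unfold QQ
  have h1 : (1 / (Fintype.card J : ℝ)) * ∑ c, (∑ j, h (j, c)) ^ 2 ≤ ∑ k, h k ^ 2 := by
    rw [Fintype.sum_prod_type_right, Finset.mul_sum]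
    refine Finset.sum_le_sum fun c _ => ?_
    have e3 : (∑ j, h (j, c)) ^ 2 ≤ (Finset.univ : Finset J).card * ∑ j, h (j, c) ^ 2 :=
      sq_sum_le_card_mul_sum_sq
    rw [Finset.card_univ] at e3
    rcases Nat.eq_zero_or_pos (Fintype.card J) with hJ | hJ
    · rw [hJ]; simp; positivity
    · have hJ' : (0 : ℝ) < Fintype.card J := by exact_mod_cast hJ
      rw [one_div, inv_mul_le_iff₀ hJ']
      exact e3
  linarith

end Vale.Agent.P184.H460
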