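import Vale.Agent.P184.H460.GDef

/-!
# Block G3a: the fields
-/

open scoped Matrix Matrix.Norms.L2Operator Kronecker ENNReal

namespace Vale.Agent.P184.H57

open Vale.Agent.P184.Un Ker

set_option linter.unusedSectionVars false

universe u

section

variable {G : Type u} [Group G] {x : G} {S : Finset G} {ε : ℝ} (D : FData G x S ε)
  (K : Cliff D.m D.C) (q : ℕ) [NeZero q]

/-! ### G3: the fields `W`, `B`, `B'` -/

theorem fB'_symm (P : Polynomial ℝ) (u v : D.E) (s : G →₀ ℝ) :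
    fB' D K q P u v s = fB' D K q P v u s := by
  rw [fB'_eq, fB'_eq]
  exact (fWS D K q P).B'_symm u v s

theorem fW_deriv (P : Polynomial ℝ) (s : G →₀ ℝ) (r : G) :
    HasDerivAt (fun τ : ℝ => fW D K q P (s + Finsupp.single r τ)) (fW1 D K q P r s) 0 := by
  rw [fW1_eq]
  simp only [fW_eq]
  exact (fWS D K q P).W_deriv s r

theorem fB_deriv (P : Polynomial ℝ) (u : D.E) (s : G →₀ ℝ) (r : G) :
    HasDerivAt (fun τ : ℝ => fB D K q P u (s + Finsupp.single r τ)) (fB1 D K q P u r s) 0 := by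
  rw [fB1_eq]
  simp only [fB_eq]
  exact (fWS D K q P).B_deriv u s r

theorem fW_cont (P : Polynomial ℝ) (N : ℕ) (c : Fin N → G) :
    Continuous fun t : Fin N → ℝ => fW D K q P (sN c t) := by
  simp only [fW_eq]
  exact (fWS D K q P).W_cont N c

theorem fB_cont (P : Polynomial ℝ) (N : ℕ) (c : Fin N → G) (u : D.E) :
    Continuous fun t : Fin N → ℝ => fB D K q P u (sN c t) := by
  simp only [fB_eq]
  exact (fWS D K q P).B_cont N c u

theorem fB'_cont (P : Polynomial ℝ) (N : ℕ) (c : Fin N → G) (u v : D.E) :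
    Continuous fun t : Fin N → ℝ => fB' D K q P u v (sN c t) := by
  simp only [fB'_eq]
  exact (fWS D K q P).B'_cont N c u v

theorem fB_bd (P : Polynomial ℝ) : ∃ CB : ℝ, 0 ≤ CB ∧ ∀ s : G →₀ ℝ, (∀ r, 0 ≤ s r) → mass s ≤ 2 →
    (‖fW D K q P s‖ ≤ CB ∧ ∀ u, ‖fB D K q P u s‖ ≤ CB ∧ ∀ v, ‖fB' D K q P u v s‖ ≤ CB) := by
  obtain ⟨CB, h⟩ := (fWS D K q P).exists_bd
  refine ⟨CB, (norm_nonneg _).trans (h 0 (fun r => le_rfl) ?_).1, fun s hs h2 => ?_⟩
  · rw [Finsupp.sum_zero_index]; norm_num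
  · obtain ⟨h3, h4, h5⟩ := h s hs h2
    refine ⟨?_, fun u => ⟨?_, fun v => ?_⟩⟩
    · rw [fW_eq]; exact h3
    · rw [fB_eq]; exact h4 u
    · rw [fB'_eq]; exact h5 u v

theorem fW_shift (P : Polynomial ℝ) (s : G →₀ ℝ) (r : G) (τ : ℝ) :
    fW D K q P (s + Finsupp.single (x * r) τ) = fW D K q P (s + Finsupp.single r τ) := by
  rw [fW_eq, fW_eq]
  exact (fWS D K q P).W_shift D.q_x s r τ

theorem fB_shift (P : Polynomial ℝ) (u : D.E) (s : G →₀ ℝ) (r : G) (τ : ℝ) :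
    fB D K q P u (s + Finsupp.single (x * r) τ) = fB D K q P u (s + Finsupp.single r τ) := by
  rw [fB_eq, fB_eq]
  exact (fWS D K q P).B_shift D.q_x u s r τ

/-! ### equivariance -/

/-- the action on real functions -/
noncomputable def fσ' (c : G) : C(D.Ω, ℝ) →ₐ[ℝ] C(D.Ω, ℝ) where
  toFun b := b.comp (D.act c⁻¹)
  map_one' := rfl
  map_mul' _ _ := rfl
  map_zero' := rfl
  map_add' _ _ := rfl
  commutes' _ := rfl

theorem fInd_H (c : G) (hc : c * x = x * c) (p : G) (u : D.E) (k : ZMod D.m × D.C) :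
    fInd D (c * p) u k = fσ' D c (fInd D p u k) := by
  classical
  ext ω
  change (if D.col (c * p) u ω = k then (1 : ℝ) else 0) =
    if D.col p u (D.act c⁻¹ ω) = k then (1 : ℝ) else 0
  rw [← D.col_act c hc p u (D.act c⁻¹ ω), D.act_inv c hc ω]

/-- the shift of the colours -/
def fπ {m : ℕ} {C : Type} : ZMod m × C ≃ ZMod m × C where
  toFun k := (k.1 + 1, k.2)
  invFun k := (k.1 - 1, k.2)
  left_inv k := by simp
  right_inv k := by simp

theorem fInd_x (p : G) (u : D.E) (k : ZMod D.m × D.C) :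
    fInd D (x * p) u (fπ k) = fInd D p u k := by
  classical
  ext ω
  change (if D.col (x * p) u ω = fπ k then (1 : ℝ) else 0) =
    if D.col p u ω = k then (1 : ℝ) else 0
  rw [D.col_x]
  have : (((D.col p u ω).1 + 1, (D.col p u ω).2) = fπ k) ↔ D.col p u ω = k :=
    (fπ (m := D.m) (C := D.C)).injective.eq_iff (a := D.col p u ω) (b := k)
  simp only [this]

/-- equivariance of `fW`, for every ring homomorphism acting by composition -/
theorem fW_H' (P : Polynomial ℝ) (c : G) (hc : c * x = x * c) (σ : RR D K q →+* RR D K q)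
    (hσ : ∀ b ω, σ b ω = b (D.act c⁻¹ ω)) (s : G →₀ ℝ) (p : G) :
    (fW D K q P (s.mapDomain (c * ·))).1 (c * p) = σ ((fW D K q P s).1 p) := by
  rw [fW_eq, fW_eq]
  exact (fWS D K q P).W_H (c := c) (fun r p u => D.q_H c hc r p u) (fσ' D c)
    (fInd_H D c hc) σ (fun k a => by ext1 ω; rw [hσ]; rfl) s p

theorem fB_H' (P : Polynomial ℝ) (c : G) (hc : c * x = x * c) (σ : RR D K q →+* RR D K q)
    (hσ : ∀ b ω, σ b ω = b (D.act c⁻¹ ω)) (u : D.E) (s : G →₀ ℝ) (p : G) :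
    (fB D K q P u (s.mapDomain (c * ·))).1 (c * p) = σ ((fB D K q P u s).1 p) := by
  rw [fB_eq, fB_eq]
  exact (fWS D K q P).B_H (c := c) (fun r p u => D.q_H c hc r p u) (fσ' D c)
    (fInd_H D c hc) σ (fun k a => by ext1 ω; rw [hσ]; rfl) u s p

theorem cH_conj (k : ZMod D.m × D.C) :
    ((1 : Matrix (Fin q) (Fin q) ℂ) ⊗ₖ K.Λᴴ) * cH K q k *
      ((1 : Matrix (Fin q) (Fin q) ℂ) ⊗ₖ K.Λ) = cH K q (fπ k) := by
  unfold cH
  rw [← Matrix.mul_kronecker_mul, ← Matrix.mul_kronecker_mul, mul_one, mul_one]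
  congr 1
  obtain ⟨j, c⟩ := k
  have h := K.Λ_ch j c
  change K.Λᴴ * K.ch (j, c) * K.Λ = K.ch (j + 1, c)
  rw [mul_assoc, ← h, ← mul_assoc, K.Λ_star, one_mul]

theorem theta_psi (θ : RR D K q →+* RR D K q)
    (hθ : ∀ b ω, θ b ω = ((1 : Matrix (Fin q) (Fin q) ℂ) ⊗ₖ K.Λᴴ) * b ω *
      ((1 : Matrix (Fin q) (Fin q) ℂ) ⊗ₖ K.Λ)) (k : ZMod D.m × D.C) (a : C(D.Ω, ℝ)) :
    θ (fPsi D K q k a) = fPsi D K q (fπ k) a := by
  ext1 ω
  rw [hθ, fPsi_apply, fPsi_apply, mul_smul_comm, smul_mul_assoc, cH_conj]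

/-- equivariance of `fW` under the twist -/
theorem fW_x' (P : Polynomial ℝ) (θ : RR D K q →+* RR D K q)
    (hθ : ∀ b ω, θ b ω = ((1 : Matrix (Fin q) (Fin q) ℂ) ⊗ₖ K.Λᴴ) * b ω *
      ((1 : Matrix (Fin q) (Fin q) ℂ) ⊗ₖ K.Λ)) (s : G →₀ ℝ) (p : G) :
    (fW D K q P s).1 (x * p) = θ ((fW D K q P s).1 p) := by
  rw [fW_eq]
  exact (fWS D K q P).W_x (x := x) (fun r p u => D.q_x' r p u) fπ (fInd_x D) θ
    (theta_psi D K q θ hθ) s p

theorem fB_x' (P : Polynomial ℝ) (θ : RR D K q →+* RR D K q)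
    (hθ : ∀ b ω, θ b ω = ((1 : Matrix (Fin q) (Fin q) ℂ) ⊗ₖ K.Λᴴ) * b ω *
      ((1 : Matrix (Fin q) (Fin q) ℂ) ⊗ₖ K.Λ)) (u : D.E) (s : G →₀ ℝ) (p : G) :
    (fB D K q P u s).1 (x * p) = θ ((fB D K q P u s).1 p) := by
  rw [fB_eq]
  exact (fWS D K q P).B_x (x := x) (fun r p u => D.q_x' r p u) fπ (fInd_x D) θ
    (theta_psi D K q θ hθ) u s p

end

end Vale.Agent.P184.H57
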